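import Mathlib

namespace Vale.Agent.Lib.P047

open Finset

/-- The sign of a bit: `true` is `+1`, `false` is `-1`. -/
def sg (b : Bool) : ℝ := if b then 1 else -1

/-- The level-one Fourier coefficient `E[f(X) X_i]`, `X` uniform on the cube `{-1,1}^n`
(points of the cube are coded as `Fin n → Bool` through `sg`). -/
noncomputable def fourierOne {n : ℕ} (f : (Fin n → Bool) → ℝ) (i : Fin n) : ℝ :=
  (∑ x : Fin n → Bool, f x * sg (x i)) / 2 ^ n

/-- `x` lies in the subcube coded by the partial assignment `ρ`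
(`ρ i = some b` fixes coordinate `i` to `b`, `ρ i = none` leaves it free). -/
def InCube {n : ℕ} (ρ : Fin n → Option Bool) (x : Fin n → Bool) : Prop :=
  ∀ i, ρ i = none ∨ ρ i = some (x i)

/-- The codimension of the subcube: the number of fixed coordinates. -/
def width {n : ℕ} (ρ : Fin n → Option Bool) : ℕ :=
  (univ.filter fun i => ρ i ≠ none).card

/-- allowed values of a coordinate -/
def allowed (o : Option Bool) : Finset Bool :=
  match o with
  | none => univ
  | some b => {b}

/-- the subcube as a finset -/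
def cube {n : ℕ} (ρ : Fin n → Option Bool) : Finset (Fin n → Bool) :=
  Fintype.piFinset fun i => allowed (ρ i)

/-- signed value of a fixed coordinate, zero for a free one -/
def sval (o : Option Bool) : ℝ :=
  match o with
  | none => 0
  | some b => sg b

/-- sum of the fixed signs -/
def ssum {n : ℕ} (ρ : Fin n → Option Bool) : ℝ := ∑ i, sval (ρ i)

lemma mem_cube {n : ℕ} (ρ : Fin n → Option Bool) (x : Fin n → Bool) :
    x ∈ cube ρ ↔ InCube ρ x := by
  unfold cube InCube
  rw [Fintype.mem_piFinset]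
  refine forall_congr' fun i => ?_
  cases h : ρ i with
  | none => simp [allowed]
  | some b =>
    simp only [allowed, mem_singleton]
    constructor
    · intro hx; right; rw [hx]
    · intro hx
      rcases hx with hx | hx
      · cases hx
      · exact (Option.some.inj hx).symm

/-- the basic product formula on a subcube -/
lemma cube_sum_prod {n : ℕ} (ρ : Fin n → Option Bool) (h : Fin n → Bool → ℝ) :
    ∑ x ∈ cube ρ, ∏ i, h i (x i) = ∏ i, ∑ b ∈ allowed (ρ i), h i b := by
  unfold cube
  rw [Finset.prod_univ_sum]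

lemma prod_half_width {n : ℕ} (ρ : Fin n → Option Bool) (c : ℝ) :
    ∏ i, (match ρ i with | none => (1 : ℝ) | some _ => c) = c ^ width ρ := by
  unfold width
  rw [← Finset.prod_const, Finset.prod_filter]
  refine Finset.prod_congr rfl fun i _ => ?_
  cases h : ρ i <;> simp


lemma sum_allowed (o : Option Bool) (g : Bool → ℝ) :
    ∑ b ∈ allowed o, g b = match o with | none => g true + g false | some b => g b := by
  cases o with
  | none => simp [allowed]
  | some b => simp [allowed]

/-- the tilted one-coordinate weight -/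
noncomputable def tilt (θ : ℝ) (b : Bool) : ℝ := Real.exp (θ * sg b) / (2 * Real.cosh θ)

lemma tilt_nonneg (θ : ℝ) (b : Bool) : 0 ≤ tilt θ b := by
  unfold tilt
  have := Real.cosh_pos θ
  positivity

lemma tilt_sum (θ : ℝ) : tilt θ true + tilt θ false = 1 := by
  unfold tilt sg
  have h := Real.cosh_pos θ
  rw [← add_div, div_eq_one_iff_eq (by positivity)]
  rw [Real.cosh_eq]
  simp
  ring

lemma tilt_total {n : ℕ} (θ : ℝ) : ∑ x : Fin n → Bool, ∏ i, tilt θ (x i) = 1 := by
  have := cube_sum_prod (n := n) (fun _ => none) (fun _ => tilt θ)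
  have hc : cube (n := n) (fun _ => none) = univ := by
    ext x; simp [mem_cube, InCube]
  rw [hc] at this
  rw [this]
  apply Finset.prod_eq_one
  intro i _
  rw [sum_allowed]
  exact tilt_sum θ

lemma tilt_cube {n : ℕ} (ρ : Fin n → Option Bool) (θ : ℝ) :
    ∑ x ∈ cube ρ, ∏ i, tilt θ (x i)
      = Real.exp (θ * ssum ρ) * ((2 * Real.cosh θ)⁻¹) ^ width ρ := by
  rw [cube_sum_prod, ← prod_half_width, ssum, Finset.mul_sum, Real.exp_sum, ← Finset.prod_mul_distrib]
  refine Finset.prod_congr rfl fun i _ => ?_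
  rw [sum_allowed]
  cases h : ρ i with
  | none => simp [sval, tilt_sum]
  | some b => simp [sval, tilt, div_eq_mul_inv]

lemma unif_cube_one {n : ℕ} (ρ : Fin n → Option Bool) :
    ∑ _x ∈ cube ρ, (1 / 2 : ℝ) ^ n = (1 / 2 : ℝ) ^ width ρ := by
  have := cube_sum_prod ρ (fun _ _ => (1 / 2 : ℝ))
  simp only [Finset.prod_const, Finset.card_univ, Fintype.card_fin] at this
  rw [this, ← prod_half_width]
  refine Finset.prod_congr rfl fun i _ => ?_
  rw [sum_allowed]
  cases h : ρ i with
  | none => norm_num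
  | some b => rfl

lemma unif_cube_sg {n : ℕ} (ρ : Fin n → Option Bool) (i : Fin n) :
    ∑ x ∈ cube ρ, (1 / 2 : ℝ) ^ n * sg (x i) = (1 / 2 : ℝ) ^ width ρ * sval (ρ i) := by
  have := cube_sum_prod ρ (fun k b => (1 / 2 : ℝ) * (if k = i then sg b else 1))
  have h1 : ∀ x : Fin n → Bool,
      ∏ k, ((1 / 2 : ℝ) * (if k = i then sg (x k) else 1)) = (1 / 2 : ℝ) ^ n * sg (x i) := by
    intro x
    rw [Finset.prod_mul_distrib]
    simp [Finset.prod_ite_eq']
  simp only [h1] at this
  rw [this, ← prod_half_width]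
  have h2 : sval (ρ i) = ∏ k, (if k = i then sval (ρ k) else 1) := by
    simp [Finset.prod_ite_eq']
  rw [h2, ← Finset.prod_mul_distrib]
  refine Finset.prod_congr rfl fun k _ => ?_
  rw [sum_allowed]
  cases h : ρ k with
  | none =>
    by_cases hk : k = i
    · simp [hk, sval, sg]
    · simp [hk]; norm_num
  | some b =>
    by_cases hk : k = i
    · simp [hk, sval]
    · simp [hk]


lemma sval_sq (o : Option Bool) : sval o * sval o = if o ≠ none then 1 else 0 := by
  cases o with
  | none => simp [sval]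
  | some b => cases b <;> simp [sval, sg]

lemma sum_sval_sq {n : ℕ} (ρ : Fin n → Option Bool) :
    ∑ i, sval (ρ i) * sval (ρ i) = (width ρ : ℝ) := by
  simp only [sval_sq]
  rw [Finset.sum_ite, Finset.sum_const_zero, add_zero, Finset.sum_const, width]
  simp

lemma unif_cube_sg2 {n : ℕ} (ρ : Fin n → Option Bool) (i k : Fin n) (hik : i ≠ k) :
    ∑ x ∈ cube ρ, (1 / 2 : ℝ) ^ n * (sg (x i) * sg (x k))
      = (1 / 2 : ℝ) ^ width ρ * (sval (ρ i) * sval (ρ k)) := by
  have := cube_sum_prod ρ
    (fun l b => (1 / 2 : ℝ) * ((if l = i then sg b else 1) * (if l = k then sg b else 1)))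
  have h1 : ∀ x : Fin n → Bool,
      ∏ l, ((1 / 2 : ℝ) * ((if l = i then sg (x l) else 1) * (if l = k then sg (x l) else 1)))
        = (1 / 2 : ℝ) ^ n * (sg (x i) * sg (x k)) := by
    intro x
    rw [Finset.prod_mul_distrib, Finset.prod_mul_distrib]
    simp [Finset.prod_ite_eq']
  simp only [h1] at this
  rw [this, ← prod_half_width]
  have h2 : sval (ρ i) * sval (ρ k)
      = ∏ l, ((if l = i then sval (ρ l) else 1) * (if l = k then sval (ρ l) else 1)) := by
    rw [Finset.prod_mul_distrib]
    simp [Finset.prod_ite_eq']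
  rw [h2, ← Finset.prod_mul_distrib]
  refine Finset.prod_congr rfl fun l _ => ?_
  rw [sum_allowed]
  cases h : ρ l with
  | none =>
    by_cases hl : l = i
    · have hlk : l ≠ k := fun h' => hik (hl.symm.trans h')
      simp [hl, hik, sval, sg]
    · by_cases hl2 : l = k
      · simp [hl2, hik.symm, sval, sg]
      · simp [hl, hl2]; norm_num
  | some b =>
    by_cases hl : l = i
    · have hlk : l ≠ k := fun h' => hik (hl.symm.trans h')
      simp [hl, hik, sval]
    · by_cases hl2 : l = k
      · simp [hl2, hik.symm, sval]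
      · simp [hl, hl2]

/-- second moment of `S(x) = ∑ x_i` on a subcube -/
lemma unif_cube_sq {n : ℕ} (ρ : Fin n → Option Bool) :
    ∑ x ∈ cube ρ, (1 / 2 : ℝ) ^ n * ((∑ i, sg (x i)) * (∑ k, sg (x k)))
      = (1 / 2 : ℝ) ^ width ρ * (ssum ρ * ssum ρ + n - width ρ) := by
  have h1 : ∀ x : Fin n → Bool, (1 / 2 : ℝ) ^ n * ((∑ i, sg (x i)) * (∑ k, sg (x k)))
      = ∑ i, ∑ k, (1 / 2 : ℝ) ^ n * (sg (x i) * sg (x k)) := by
    intro x
    rw [Finset.sum_mul_sum, Finset.mul_sum]
    refine Finset.sum_congr rfl fun i _ => ?_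
    rw [Finset.mul_sum]
  simp only [h1]
  rw [Finset.sum_comm]
  have h2 : ∀ i : Fin n, ∑ x ∈ cube ρ, ∑ k, (1 / 2 : ℝ) ^ n * (sg (x i) * sg (x k))
      = ∑ k, (1 / 2 : ℝ) ^ width ρ *
        (sval (ρ i) * sval (ρ k) + if i = k then (1 - sval (ρ i) * sval (ρ k)) else 0) := by
    intro i
    rw [Finset.sum_comm]
    refine Finset.sum_congr rfl fun k _ => ?_
    by_cases hik : i = k
    · subst hik
      have : ∀ x : Fin n → Bool, (1 / 2 : ℝ) ^ n * (sg (x i) * sg (x i)) = (1 / 2 : ℝ) ^ n := by
        intro x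
        have : sg (x i) * sg (x i) = 1 := by cases x i <;> simp [sg]
        rw [this, mul_one]
      simp only [this, unif_cube_one]
      simp
    · rw [unif_cube_sg2 ρ i k hik]; simp [hik]
  simp only [h2]
  simp only [← Finset.mul_sum]
  congr 1
  simp only [Finset.sum_add_distrib, Finset.sum_ite_eq, Finset.mem_univ, if_true]
  rw [Finset.sum_sub_distrib, sum_sval_sq]
  unfold ssum
  rw [Finset.sum_mul_sum]
  simp
  ring

end Vale.Agent.Lib.P047
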