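import Mathlib
import Vale.Agent.Lib.P047.Cube

namespace Vale.Agent.Lib.P047

open Finset

variable {ι κ : Type} [Fintype ι] [DecidableEq ι] [Fintype κ] [DecidableEq κ]

/-- The character `χ_S(x) = ∏_{i ∈ S} x_i` on the cube `{-1,1}^ι` (coded by `ι → Bool` via `sg`). -/
def chi (S : Finset ι) (x : ι → Bool) : ℝ := ∏ i ∈ S, sg (x i)

/-- The Fourier coefficient `E[F(X) χ_S(X)]`, `X` uniform on the cube. -/
noncomputable def coef (F : (ι → Bool) → ℝ) (S : Finset ι) : ℝ :=
  (∑ x : ι → Bool, F x * chi S x) / 2 ^ Fintype.card ι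

/-- The `±1`-valued real function attached to a `Bool`-valued function. -/
def toReal (f : (ι → Bool) → Bool) : (ι → Bool) → ℝ := fun x => sg (f x)

/-- The degree: the largest `|S|` with nonzero Fourier coefficient (`0` for constants). -/
noncomputable def degree (f : (ι → Bool) → Bool) : ℕ :=
  (univ.filter fun S : Finset ι => coef (toReal f) S ≠ 0).sup Finset.card

/-- The sum of the level-one Fourier coefficients. -/
noncomputable def linSum (f : (ι → Bool) → Bool) : ℝ := ∑ i, coef (toReal f) {i}

lemma sg_mul_self (b : Bool) : sg b * sg b = 1 := by cases b <;> simp [sg]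

lemma sg_sum : sg true + sg false = 0 := by simp [sg]

lemma sg_mul_ne {a b : Bool} (h : a ≠ b) : sg a * sg b = -1 := by
  cases a <;> cases b <;> simp_all [sg]

lemma chi_eq_prod_ite (S : Finset ι) (x : ι → Bool) :
    chi S x = ∏ i, (if i ∈ S then sg (x i) else 1) := by
  unfold chi
  rw [Finset.prod_ite_mem, Finset.univ_inter]

/-- sum over the whole cube of a product function -/
lemma sum_prod_cube (h : ι → Bool → ℝ) :
    ∑ x : ι → Bool, ∏ i, h i (x i) = ∏ i, (h i true + h i false) := by
  rw [← Fintype.prod_sum]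
  refine Finset.prod_congr rfl fun i _ => ?_
  simp

lemma sum_chi (S : Finset ι) :
    ∑ x : ι → Bool, chi S x = if S = ∅ then (2 : ℝ) ^ Fintype.card ι else 0 := by
  simp only [chi_eq_prod_ite]
  rw [sum_prod_cube (fun i b => if i ∈ S then sg b else 1)]
  split_ifs with h
  · subst h
    simp
    norm_num
  · obtain ⟨i, hi⟩ := Finset.nonempty_iff_ne_empty.2 h
    apply Finset.prod_eq_zero (mem_univ i)
    simp [hi, sg_sum]

lemma sum_chi_chi (x y : ι → Bool) :
    ∑ S : Finset ι, chi S x * chi S y = if x = y then (2 : ℝ) ^ Fintype.card ι else 0 := by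
  have h1 : ∑ S : Finset ι, chi S x * chi S y = ∏ i, (1 + sg (x i) * sg (y i)) := by
    rw [Finset.prod_one_add, Finset.powerset_univ]
    refine Finset.sum_congr rfl fun S _ => ?_
    unfold chi
    rw [Finset.prod_mul_distrib]
  rw [h1]
  split_ifs with h
  · subst h
    simp [sg_mul_self]
    norm_num
  · obtain ⟨i, hi⟩ := Function.ne_iff.1 h
    apply Finset.prod_eq_zero (mem_univ i)
    rw [sg_mul_ne hi]; ring

/-- Fourier inversion. -/
lemma inversion (F : (ι → Bool) → ℝ) (x : ι → Bool) :
    F x = ∑ S : Finset ι, coef F S * chi S x := by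
  unfold coef
  have h : ∀ S : Finset ι, (∑ y : ι → Bool, F y * chi S y) / 2 ^ Fintype.card ι * chi S x
      = ∑ y : ι → Bool, F y / 2 ^ Fintype.card ι * (chi S x * chi S y) := by
    intro S
    rw [Finset.sum_div, Finset.sum_mul]
    refine Finset.sum_congr rfl fun y _ => ?_
    ring
  simp only [h]
  rw [Finset.sum_comm]
  simp only [← Finset.mul_sum, sum_chi_chi]
  simp


/-- Composition on disjoint blocks of variables: `f(g(x^1), ..., g(x^n))`. -/
def comp (f : (ι → Bool) → Bool) (g : (κ → Bool) → Bool) : (ι × κ → Bool) → Bool :=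
  fun x => f fun i => g fun k => x (i, k)

/-- the part of `T` in block `i` -/
def fiber (T : Finset (ι × κ)) (i : ι) : Finset κ := univ.filter fun k => (i, k) ∈ T

/-- the blocks met by `T` -/
def supp (T : Finset (ι × κ)) : Finset ι := univ.filter fun i => fiber T i ≠ ∅

lemma chi_block (T : Finset (ι × κ)) (x : ι × κ → Bool) :
    chi T x = ∏ i, chi (fiber T i) (fun k => x (i, k)) := by
  rw [chi_eq_prod_ite, Fintype.prod_prod_type]
  refine Finset.prod_congr rfl fun i _ => ?_
  rw [chi_eq_prod_ite]
  refine Finset.prod_congr rfl fun k _ => ?_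
  simp [fiber]

lemma sum_block (φ : ι → (κ → Bool) → ℝ) :
    ∑ x : ι × κ → Bool, ∏ i, φ i (fun k => x (i, k)) = ∏ i, ∑ z : κ → Bool, φ i z := by
  rw [Fintype.prod_sum]
  exact (Equiv.curry ι κ Bool).sum_comp (fun y : ι → κ → Bool => ∏ i, φ i (y i))

lemma coef_comp (f : (ι → Bool) → Bool) (g : (κ → Bool) → Bool) (T : Finset (ι × κ)) :
    coef (toReal (comp f g)) T = ∑ S : Finset ι, coef (toReal f) S *
      ∏ i, (if i ∈ S then coef (toReal g) (fiber T i) else (if fiber T i = ∅ then 1 else 0)) := by
  have h1 : ∀ x : ι × κ → Bool, toReal (comp f g) x * chi T x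
      = ∑ S : Finset ι, coef (toReal f) S *
        ∏ i, ((if i ∈ S then toReal g (fun k => x (i, k)) else 1)
          * chi (fiber T i) (fun k => x (i, k))) := by
    intro x
    have : toReal (comp f g) x = toReal f (fun i => g fun k => x (i, k)) := rfl
    rw [this, inversion (toReal f), Finset.sum_mul]
    refine Finset.sum_congr rfl fun S _ => ?_
    rw [chi_eq_prod_ite, chi_block, Finset.prod_mul_distrib, mul_assoc]
    rfl
  unfold coef at *
  simp only [h1]
  rw [Finset.sum_comm, Finset.sum_div]
  refine Finset.sum_congr rfl fun S _ => ?_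
  rw [← Finset.mul_sum,
    sum_block (fun i z => (if i ∈ S then toReal g z else 1) * chi (fiber T i) z), mul_div_assoc]
  congr 1
  have hc : (2 : ℝ) ^ Fintype.card (ι × κ) = ∏ _i : ι, (2 : ℝ) ^ Fintype.card κ := by
    rw [Finset.prod_const, Fintype.card_prod, Finset.card_univ, ← pow_mul, mul_comm]
  rw [hc, ← Finset.prod_div_distrib]
  refine Finset.prod_congr rfl fun i _ => ?_
  split_ifs with hi he
  · rfl
  · simp only [one_mul, sum_chi, he, if_true]
    rw [div_self (by positivity)]
  · simp only [one_mul, sum_chi, he, if_false]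
    simp

/-- the Fourier coefficients of a composition with a balanced inner function -/
lemma coef_comp_balanced (f : (ι → Bool) → Bool) (g : (κ → Bool) → Bool)
    (hg : coef (toReal g) ∅ = 0) (T : Finset (ι × κ)) :
    coef (toReal (comp f g)) T
      = coef (toReal f) (supp T) * ∏ i ∈ supp T, coef (toReal g) (fiber T i) := by
  rw [coef_comp, Finset.sum_eq_single (supp T)]
  · congr 1
    rw [← Finset.prod_filter_mul_prod_filter_not univ (fun i => i ∈ supp T)]
    have e1 : (univ.filter fun i => i ∈ supp T) = supp T := by ext i; simp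
    rw [e1]
    have e2 : ∏ i ∈ univ.filter (fun i => i ∉ supp T),
        (if i ∈ supp T then coef (toReal g) (fiber T i) else (if fiber T i = ∅ then (1 : ℝ) else 0)) = 1 := by
      apply Finset.prod_eq_one
      intro i hi
      have hi' : i ∉ supp T := (mem_filter.1 hi).2
      have : fiber T i = ∅ := by
        by_contra hne
        exact hi' (by simp [supp, hne])
      simp [hi', this]
    rw [e2, mul_one]
    refine Finset.prod_congr rfl fun i hi => ?_
    simp [hi]
  · intro S _ hS
    have : ∃ i, (i ∈ S ∧ i ∉ supp T) ∨ (i ∉ S ∧ i ∈ supp T) := by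
      by_contra hcon
      push Not at hcon
      apply hS
      ext i
      constructor
      · intro hi; exact (hcon i).1 hi
      · intro hi; by_contra hni; exact (hcon i).2 hni hi
    obtain ⟨i, hi⟩ := this
    apply mul_eq_zero_of_right
    apply Finset.prod_eq_zero (mem_univ i)
    rcases hi with ⟨h1, h2⟩ | ⟨h1, h2⟩
    · have : fiber T i = ∅ := by
        by_contra hne
        exact h2 (by simp [supp, hne])
      simp [h1, this, hg]
    · have : fiber T i ≠ ∅ := by
        simpa [supp] using h2
      simp [h1, this]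
  · intro h; exact absurd (mem_univ _) h


lemma fiber_empty (i : ι) : fiber (∅ : Finset (ι × κ)) i = ∅ := by simp [fiber]

lemma supp_empty : supp (∅ : Finset (ι × κ)) = ∅ := by simp [supp, fiber_empty]

lemma fiber_singleton (i : ι) (k : κ) : fiber ({(i, k)} : Finset (ι × κ)) i = {k} := by
  ext k'; simp [fiber]

lemma supp_singleton (i : ι) (k : κ) : supp ({(i, k)} : Finset (ι × κ)) = {i} := by
  ext i'
  simp only [supp, mem_filter, mem_univ, true_and, mem_singleton]
  constructor
  · intro h
    obtain ⟨k', hk'⟩ := Finset.nonempty_iff_ne_empty.2 h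
    simp [fiber] at hk'
    exact hk'.1
  · intro h
    subst h
    rw [fiber_singleton]; simp

lemma coef_comp_empty (f : (ι → Bool) → Bool) (g : (κ → Bool) → Bool)
    (hg : coef (toReal g) ∅ = 0) :
    coef (toReal (comp f g)) ∅ = coef (toReal f) ∅ := by
  rw [coef_comp_balanced f g hg, supp_empty]; simp

lemma linSum_comp (f : (ι → Bool) → Bool) (g : (κ → Bool) → Bool)
    (hg : coef (toReal g) ∅ = 0) :
    linSum (comp f g) = linSum f * linSum g := by
  unfold linSum
  rw [Fintype.sum_prod_type, Finset.sum_mul_sum]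
  refine Finset.sum_congr rfl fun i _ => Finset.sum_congr rfl fun k _ => ?_
  rw [coef_comp_balanced f g hg, supp_singleton, Finset.prod_singleton, fiber_singleton]

lemma card_eq_sum_fiber (T : Finset (ι × κ)) : T.card = ∑ i ∈ supp T, (fiber T i).card := by
  have h1 : T.card = ∑ i, (fiber T i).card := by
    have : T.card = ∑ p : ι × κ, (if p ∈ T then 1 else 0) := by
      rw [Finset.sum_ite_mem, Finset.univ_inter, Finset.card_eq_sum_ones]
    rw [this, Fintype.sum_prod_type]
    refine Finset.sum_congr rfl fun i _ => ?_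
    rw [fiber, Finset.card_filter]
  rw [h1]
  symm
  apply Finset.sum_subset (Finset.subset_univ _)
  intro i _ hi
  have : fiber T i = ∅ := by
    by_contra hne
    exact hi (by simp [supp, hne])
  rw [this]; simp

lemma card_le_degree (f : (ι → Bool) → Bool) (S : Finset ι) (h : coef (toReal f) S ≠ 0) :
    S.card ≤ degree f := by
  unfold degree
  exact Finset.le_sup (f := Finset.card) (by simp [h])

lemma degree_le_iff (f : (ι → Bool) → Bool) (d : ℕ) :
    degree f ≤ d ↔ ∀ S : Finset ι, coef (toReal f) S ≠ 0 → S.card ≤ d := by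
  unfold degree
  rw [Finset.sup_le_iff]
  simp

lemma degree_comp (f : (ι → Bool) → Bool) (g : (κ → Bool) → Bool)
    (hg : coef (toReal g) ∅ = 0) :
    degree (comp f g) ≤ degree f * degree g := by
  rw [degree_le_iff]
  intro T hT
  rw [coef_comp_balanced f g hg] at hT
  have h1 : coef (toReal f) (supp T) ≠ 0 := left_ne_zero_of_mul hT
  have h2 : ∀ i ∈ supp T, coef (toReal g) (fiber T i) ≠ 0 :=
    Finset.prod_ne_zero_iff.1 (right_ne_zero_of_mul hT)
  rw [card_eq_sum_fiber]
  calc ∑ i ∈ supp T, (fiber T i).card ≤ ∑ _i ∈ supp T, degree g :=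
        Finset.sum_le_sum fun i hi => card_le_degree g _ (h2 i hi)
    _ = (supp T).card * degree g := by rw [Finset.sum_const, smul_eq_mul]
    _ ≤ degree f * degree g := Nat.mul_le_mul_right _ (card_le_degree f _ h1)

/-- renaming the variables along a bijection -/
def relabel (f : (ι → Bool) → Bool) (e : ι ≃ κ) : (κ → Bool) → Bool :=
  fun y => f fun i => y (e i)

lemma coef_relabel (f : (ι → Bool) → Bool) (e : ι ≃ κ) (T : Finset κ) :
    coef (toReal (relabel f e)) T = coef (toReal f) (T.map e.symm.toEmbedding) := by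
  unfold coef
  rw [Fintype.card_congr e]
  congr 1
  rw [← (Equiv.arrowCongr e (Equiv.refl Bool)).sum_comp]
  refine Finset.sum_congr rfl fun x _ => ?_
  have h1 : toReal (relabel f e) ((Equiv.arrowCongr e (Equiv.refl Bool)) x) = toReal f x := by
    simp [toReal, relabel, Equiv.arrowCongr]
  rw [h1]
  congr 1
  unfold chi
  rw [Finset.prod_map]
  rfl

lemma linSum_relabel (f : (ι → Bool) → Bool) (e : ι ≃ κ) : linSum (relabel f e) = linSum f := by
  unfold linSum
  rw [← e.symm.sum_comp (fun i => coef (toReal f) {i})]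
  refine Finset.sum_congr rfl fun j _ => ?_
  rw [coef_relabel]
  simp

lemma degree_relabel (f : (ι → Bool) → Bool) (e : ι ≃ κ) : degree (relabel f e) ≤ degree f := by
  rw [degree_le_iff]
  intro T hT
  rw [coef_relabel] at hT
  have := card_le_degree f _ hT
  simpa using this

end Vale.Agent.Lib.P047
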