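import Mathlib
import Vale.Agent.Lib.P047.Fourier

namespace Vale.Agent.Lib.P047

open Finset

variable {ι : Type} [Fintype ι] [DecidableEq ι]

/-- multiplication of signs, on bits -/
def bmul (a b : Bool) : Bool := a == b

lemma sg_bmul (a b : Bool) : sg (bmul a b) = sg a * sg b := by
  cases a <;> cases b <;> simp [sg, bmul]

/-- Oddization with one new variable `x0` (index `none`):
`(x0, x) ↦ (c x0) · f((c x0) · x)`, `c` a fixed sign. -/
def oddize (c : Bool) (f : (ι → Bool) → Bool) : (Option ι → Bool) → Bool :=
  fun x => bmul (bmul c (x none)) (f fun i => bmul (bmul c (x none)) (x (some i)))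

/-- where the character `χ_S` of `f` goes -/
def lift (S : Finset ι) : Finset (Option ι) :=
  if Even S.card then insertNone S else S.map Function.Embedding.some

lemma eraseNone_lift (S : Finset ι) : eraseNone (lift S) = S := by
  unfold lift
  split_ifs <;> simp

lemma card_lift_le (S : Finset ι) : (lift S).card ≤ S.card + 1 := by
  unfold lift
  split_ifs <;> simp

lemma sum_chi_mul_chi (U T : Finset ι) :
    ∑ x : ι → Bool, chi U x * chi T x = if U = T then (2 : ℝ) ^ Fintype.card ι else 0 := by
  simp only [chi_eq_prod_ite, ← Finset.prod_mul_distrib]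
  rw [sum_prod_cube (fun i b => (if i ∈ U then sg b else 1) * (if i ∈ T then sg b else 1))]
  split_ifs with h
  · subst h
    have : ∀ i : ι, ((if i ∈ U then sg true else 1) * (if i ∈ U then sg true else 1)
        + (if i ∈ U then sg false else 1) * (if i ∈ U then sg false else 1)) = (2 : ℝ) := by
      intro i
      by_cases hi : i ∈ U <;> simp [hi, sg] <;> norm_num
    simp only [this]
    simp
  · have : ∃ i, (i ∈ U ∧ i ∉ T) ∨ (i ∉ U ∧ i ∈ T) := by
      by_contra hcon
      push Not at hcon
      apply h
      ext i
      constructor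
      · intro hi; exact (hcon i).1 hi
      · intro hi; by_contra hni; exact (hcon i).2 hni hi
    obtain ⟨i, hi⟩ := this
    apply Finset.prod_eq_zero (mem_univ i)
    rcases hi with ⟨h1, h2⟩ | ⟨h1, h2⟩ <;> simp [h1, h2, sg]

lemma chi_lift (S : Finset ι) (x : Option ι → Bool) :
    chi (lift S) x = (sg (x none)) ^ (S.card + 1) * ∏ i ∈ S, sg (x (some i)) := by
  have hsq : sg (x none) ^ 2 = 1 := by rw [sq, sg_mul_self]
  unfold lift chi
  split_ifs with h
  · obtain ⟨r, hr⟩ := h
    have h1 : sg (x none) ^ (S.card + 1) = sg (x none) := by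
      rw [hr, ← two_mul, pow_succ, pow_mul, hsq]; simp
    rw [h1]
    have : (insertNone S : Finset (Option ι)) = insert none (S.map Function.Embedding.some) := by
      ext o; cases o <;> simp
    rw [this, Finset.prod_insert (by simp), Finset.prod_map]
    rfl
  · rw [Nat.not_even_iff_odd] at h
    obtain ⟨r, hr⟩ := h
    have h1 : sg (x none) ^ (S.card + 1) = 1 := by
      have : S.card + 1 = 2 * (r + 1) := by omega
      rw [this, pow_mul, hsq]; simp
    rw [h1, one_mul, Finset.prod_map]
    rfl

lemma toReal_oddize (c : Bool) (f : (ι → Bool) → Bool) (x : Option ι → Bool) :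
    toReal (oddize c f) x
      = ∑ S : Finset ι, coef (toReal f) S * (sg c) ^ (S.card + 1) * chi (lift S) x := by
  have h0 : toReal (oddize c f) x = sg c * sg (x none)
      * toReal f (fun i => bmul (bmul c (x none)) (x (some i))) := by
    simp only [toReal, oddize, sg_bmul]
  rw [h0, inversion (toReal f), Finset.mul_sum]
  refine Finset.sum_congr rfl fun S _ => ?_
  rw [chi_lift]
  unfold chi
  simp only [sg_bmul]
  rw [Finset.prod_mul_distrib, Finset.prod_const, mul_pow]
  ring

lemma coef_oddize (c : Bool) (f : (ι → Bool) → Bool) (T : Finset (Option ι)) :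
    coef (toReal (oddize c f)) T
      = if lift (eraseNone T) = T
        then coef (toReal f) (eraseNone T) * (sg c) ^ ((eraseNone T).card + 1) else 0 := by
  conv_lhs => unfold coef
  simp only [toReal_oddize, Finset.sum_mul]
  rw [Finset.sum_comm]
  have h1 : ∀ S : Finset ι, ∑ x : Option ι → Bool,
      coef (toReal f) S * sg c ^ (S.card + 1) * chi (lift S) x * chi T x
      = coef (toReal f) S * sg c ^ (S.card + 1)
        * (if lift S = T then (2 : ℝ) ^ Fintype.card (Option ι) else 0) := by
    intro S
    rw [← sum_chi_mul_chi, Finset.mul_sum]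
    refine Finset.sum_congr rfl fun x _ => ?_
    ring
  simp only [h1]
  rw [Finset.sum_eq_single (eraseNone T)]
  · split_ifs with h
    · rw [mul_div_assoc, div_self (by positivity), mul_one]
    · simp
  · intro S _ hS
    have : lift S ≠ T := by
      intro h
      apply hS
      rw [← h, eraseNone_lift]
    simp [this]
  · intro h; exact absurd (mem_univ _) h

lemma lift_empty : lift (∅ : Finset ι) = {none} := by
  simp only [lift, Finset.card_empty, Even.zero, if_true]
  ext o; cases o <;> simp

lemma coef_oddize_empty (c : Bool) (f : (ι → Bool) → Bool) :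
    coef (toReal (oddize c f)) ∅ = 0 := by
  rw [coef_oddize]
  simp [lift_empty]

lemma linSum_oddize (c : Bool) (f : (ι → Bool) → Bool) :
    linSum (oddize c f) = linSum f + sg c * coef (toReal f) ∅ := by
  unfold linSum
  rw [Fintype.sum_option, add_comm]
  congr 1
  · refine Finset.sum_congr rfl fun i _ => ?_
    rw [coef_oddize]
    have h1 : eraseNone ({some i} : Finset (Option ι)) = {i} := by ext; simp
    have h2 : lift ({i} : Finset ι) = {some i} := by simp [lift]
    rw [h1, h2]
    simp only [Finset.card_singleton, if_true]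
    rw [show (1 + 1 : ℕ) = 2 from rfl, sq, sg_mul_self, mul_one]
  · rw [coef_oddize]
    simp [lift_empty, mul_comm]

lemma degree_oddize (c : Bool) (f : (ι → Bool) → Bool) :
    degree (oddize c f) ≤ degree f + 1 := by
  rw [degree_le_iff]
  intro T hT
  rw [coef_oddize] at hT
  split_ifs at hT with h
  · have h1 : coef (toReal f) (eraseNone T) ≠ 0 := left_ne_zero_of_mul hT
    have h2 := card_le_degree f _ h1
    have h3 := card_lift_le (eraseNone T)
    rw [h] at h3
    omega
  · exact absurd rfl hT

end Vale.Agent.Lib.P047
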