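import Mathlib
import Vale.Agent.Lib.P047.Oddize

namespace Vale.Agent.Lib.P047

open Finset

set_option linter.unusedSectionVars false

variable {ι : Type} [Fintype ι] [DecidableEq ι]

lemma sum_mul_chi (F : (ι → Bool) → ℝ) (S : Finset ι) :
    ∑ x, F x * chi S x = 2 ^ Fintype.card ι * coef F S := by
  unfold coef
  field_simp

lemma toReal_sq (f : (ι → Bool) → Bool) (x : ι → Bool) : toReal f x * toReal f x = 1 :=
  sg_mul_self _

/-- flip the `i`-th coordinate -/
def flip (i : ι) (x : ι → Bool) : ι → Bool := Function.update x i (!(x i))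

lemma flip_flip (i : ι) (x : ι → Bool) : flip i (flip i x) = x := by
  unfold flip
  ext j
  by_cases h : j = i
  · subst h; simp
  · simp [h]

lemma sg_not (b : Bool) : sg (!b) = - sg b := by cases b <;> simp [sg]

lemma chi_flip (S : Finset ι) (i : ι) (x : ι → Bool) :
    chi S (flip i x) = (if i ∈ S then -1 else 1) * chi S x := by
  unfold chi flip
  by_cases h : i ∈ S
  · rw [← Finset.mul_prod_erase S _ h, ← Finset.mul_prod_erase S _ h]
    simp only [h, if_true, Function.update_self, sg_not]
    have : ∏ j ∈ S.erase i, sg (Function.update x i (!(x i)) j) = ∏ j ∈ S.erase i, sg (x j) := by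
      refine Finset.prod_congr rfl fun j hj => ?_
      rw [Function.update_of_ne (Finset.ne_of_mem_erase hj)]
    rw [this]; ring
  · simp only [h, if_false, one_mul]
    refine Finset.prod_congr rfl fun j hj => ?_
    rw [Function.update_of_ne (fun e : j = i => h (e ▸ hj))]

lemma sum_flip (i : ι) (G : (ι → Bool) → ℝ) : ∑ x, G (flip i x) = ∑ x, G x :=
  Equiv.sum_comp (Function.Involutive.toPerm (flip i) (flip_flip i)) G

/-- twisted Parseval -/
lemma sum_mul_flip (f : (ι → Bool) → Bool) (i : ι) :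
    ∑ x, toReal f x * toReal f (flip i x)
      = 2 ^ Fintype.card ι * ∑ S, (if i ∈ S then -1 else 1) * coef (toReal f) S ^ 2 := by
  have h : ∀ x, toReal f x * toReal f (flip i x)
      = ∑ S, (if i ∈ S then -1 else 1) * coef (toReal f) S * (toReal f x * chi S x) := by
    intro x
    rw [inversion (toReal f) (flip i x), Finset.mul_sum]
    refine Finset.sum_congr rfl fun S _ => ?_
    rw [chi_flip]; ring
  simp only [h]
  rw [Finset.sum_comm, Finset.mul_sum]
  refine Finset.sum_congr rfl fun S _ => ?_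
  rw [← Finset.mul_sum, sum_mul_chi]; ring

lemma parseval (f : (ι → Bool) → Bool) : ∑ S, coef (toReal f) S ^ 2 = 1 := by
  have h : ∀ x, toReal f x * toReal f x
      = ∑ S, coef (toReal f) S * (toReal f x * chi S x) := by
    intro x
    have e := inversion (toReal f) x
    calc toReal f x * toReal f x = toReal f x * ∑ S, coef (toReal f) S * chi S x := by rw [← e]
      _ = _ := by rw [Finset.mul_sum]; exact Finset.sum_congr rfl fun S _ => by ring
  have h1 : ∑ x, toReal f x * toReal f x = 2 ^ Fintype.card ι := by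
    simp [toReal_sq]
  simp only [h] at h1
  rw [Finset.sum_comm] at h1
  simp only [← Finset.mul_sum, sum_mul_chi] at h1
  have h2 : (2 : ℝ) ^ Fintype.card ι * ∑ S, coef (toReal f) S ^ 2 = 2 ^ Fintype.card ι * 1 := by
    rw [mul_one]
    refine Eq.trans ?_ h1
    rw [Finset.mul_sum]
    refine Finset.sum_congr rfl fun S _ => ?_
    ring
  exact mul_left_cancel₀ (by positivity) h2

lemma chi_singleton (i : ι) (x : ι → Bool) : chi {i} x = sg (x i) := by simp [chi]

/-- a level-one coefficient is at most the influence -/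
lemma coef_singleton_le (f : (ι → Bool) → Bool) (i : ι) :
    coef (toReal f) {i} ≤ ∑ S, (if i ∈ S then 1 else 0) * coef (toReal f) S ^ 2 := by
  have h1 : ∑ x, toReal f (flip i x) * sg (x i) = - ∑ x, toReal f x * sg (x i) := by
    rw [← sum_flip i (fun x => toReal f x * sg (x i)), ← Finset.sum_neg_distrib]
    refine Finset.sum_congr rfl fun x _ => ?_
    have : sg (flip i x i) = - sg (x i) := by
      unfold flip; rw [Function.update_self, sg_not]
    rw [this]; ring
  have h2 : ∀ x, (toReal f x - toReal f (flip i x)) * sg (x i)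
      ≤ 1 - toReal f x * toReal f (flip i x) := by
    intro x
    unfold toReal
    cases f x <;> cases f (flip i x) <;> cases x i <;> simp [sg] <;> norm_num
  have h3 := Finset.sum_le_sum fun x (_ : x ∈ (univ : Finset (ι → Bool))) => h2 x
  simp only [sub_mul, Finset.sum_sub_distrib, h1, sum_mul_flip] at h3
  have h4 : ∑ x, toReal f x * sg (x i) = 2 ^ Fintype.card ι * coef (toReal f) {i} := by
    rw [← sum_mul_chi]; simp only [chi_singleton]
  rw [h4] at h3
  have h5 : ∑ _x : ι → Bool, (1 : ℝ) = 2 ^ Fintype.card ι := by simp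
  rw [h5] at h3
  have hp := parseval f
  have h6 : ∑ S, (if i ∈ S then (1:ℝ) else 0) * coef (toReal f) S ^ 2
      = (∑ S, coef (toReal f) S ^ 2
          - ∑ S, (if i ∈ S then -1 else 1) * coef (toReal f) S ^ 2) / 2 := by
    rw [← Finset.sum_sub_distrib, Finset.sum_div]
    refine Finset.sum_congr rfl fun S _ => ?_
    split_ifs <;> ring
  rw [h6, hp]
  have hpos : (0 : ℝ) < 2 ^ Fintype.card ι := by positivity
  have h7 : (2 : ℝ) ^ Fintype.card ι * (2 * coef (toReal f) {i})
      ≤ 2 ^ Fintype.card ι * (1 - ∑ S, (if i ∈ S then -1 else 1) * coef (toReal f) S ^ 2) := by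
    linarith
  have h8 := le_of_mul_le_mul_left h7 hpos
  linarith

/-- `W(f) ≤ I(f) ≤ d (1 - \hat f(∅)^2)` -/
lemma linSum_le_var (f : (ι → Bool) → Bool) (d : ℕ) (hd : degree f ≤ d) :
    linSum f ≤ d * (1 - coef (toReal f) ∅ ^ 2) := by
  unfold linSum
  calc ∑ i, coef (toReal f) {i}
      ≤ ∑ i, ∑ S, (if i ∈ S then 1 else 0) * coef (toReal f) S ^ 2 :=
        Finset.sum_le_sum fun i _ => coef_singleton_le f i
    _ = ∑ S, (S.card : ℝ) * coef (toReal f) S ^ 2 := by
        rw [Finset.sum_comm]
        refine Finset.sum_congr rfl fun S _ => ?_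
        rw [← Finset.sum_mul]
        congr 1
        simp
    _ ≤ ∑ S, (d : ℝ) * (if S = ∅ then 0 else coef (toReal f) S ^ 2) := by
        refine Finset.sum_le_sum fun S _ => ?_
        by_cases hS : S = ∅
        · simp [hS]
        · simp only [hS, if_false]
          by_cases hc : coef (toReal f) S = 0
          · simp [hc]
          · have : (S.card : ℝ) ≤ d := by exact_mod_cast (card_le_degree f S hc).trans hd
            exact mul_le_mul_of_nonneg_right this (sq_nonneg _)
    _ = d * (1 - coef (toReal f) ∅ ^ 2) := by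
        rw [← Finset.mul_sum]
        congr 1
        have e : ∀ S : Finset ι, (if S = ∅ then (0:ℝ) else coef (toReal f) S ^ 2)
            = coef (toReal f) S ^ 2 - (if S = ∅ then coef (toReal f) S ^ 2 else 0) := by
          intro S; split_ifs <;> ring
        simp only [e, Finset.sum_sub_distrib, Finset.sum_ite_eq', mem_univ, if_true, parseval]

lemma abs_coef_empty_le (f : (ι → Bool) → Bool) : |coef (toReal f) ∅| ≤ 1 := by
  have h := parseval f
  have h1 : coef (toReal f) ∅ ^ 2 ≤ ∑ S, coef (toReal f) S ^ 2 :=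
    Finset.single_le_sum (f := fun S => coef (toReal f) S ^ 2) (fun S _ => sq_nonneg _)
      (mem_univ _)
  rw [h] at h1
  exact abs_le_one_iff_mul_self_le_one.2 (by nlinarith)

/-- fix the coordinates in `J` to `true` (that is, to `+1`) -/
def fixT (J : Finset ι) (f : (ι → Bool) → Bool) : (ι → Bool) → Bool :=
  fun x => f fun i => if i ∈ J then true else x i

lemma chi_fixT (S J : Finset ι) (x : ι → Bool) :
    chi S (fun i => if i ∈ J then true else x i) = chi (S \ J) x := by
  unfold chi
  rw [Finset.sdiff_eq_filter, Finset.prod_filter]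
  refine Finset.prod_congr rfl fun i _ => ?_
  by_cases h : i ∈ J <;> simp [h, sg]

lemma coef_fixT (J : Finset ι) (f : (ι → Bool) → Bool) (T : Finset ι) :
    coef (toReal (fixT J f)) T = ∑ S, (if S \ J = T then coef (toReal f) S else 0) := by
  have h : ∀ x, toReal (fixT J f) x * chi T x
      = ∑ S, coef (toReal f) S * (chi (S \ J) x * chi T x) := by
    intro x
    have e : toReal (fixT J f) x = toReal f (fun i => if i ∈ J then true else x i) := rfl
    rw [e, inversion (toReal f), Finset.sum_mul]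
    refine Finset.sum_congr rfl fun S _ => ?_
    rw [chi_fixT]; ring
  show (∑ x, toReal (fixT J f) x * chi T x) / 2 ^ Fintype.card ι = _
  simp only [h]
  rw [Finset.sum_comm]
  simp only [← Finset.mul_sum, sum_chi_mul_chi]
  rw [Finset.sum_div]
  refine Finset.sum_congr rfl fun S _ => ?_
  split_ifs
  · field_simp
  · simp

lemma degree_fixT (J : Finset ι) (f : (ι → Bool) → Bool) : degree (fixT J f) ≤ degree f := by
  rw [degree_le_iff]
  intro T hT
  rw [coef_fixT] at hT
  obtain ⟨S, _, hS⟩ := Finset.exists_ne_zero_of_sum_ne_zero hT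
  by_cases h : S \ J = T
  · simp only [h, if_true] at hS
    rw [← h]
    exact (Finset.card_le_card Finset.sdiff_subset).trans (card_le_degree f S hS)
  · simp [h] at hS

/-- the weight of `J` when every coordinate is put in `J` independently with probability `t` -/
noncomputable def wt (t : ℝ) (J : Finset ι) : ℝ := t ^ J.card * (1 - t) ^ (univ \ J).card

lemma wt_nonneg (t : ℝ) (h0 : 0 ≤ t) (h1 : t ≤ 1) (J : Finset ι) : 0 ≤ wt t J := by
  unfold wt
  have : 0 ≤ 1 - t := by linarith
  positivity

lemma wt_sum (t : ℝ) (A B : Finset ι) (hAB : Disjoint A B) :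
    ∑ J : Finset ι, (if A ⊆ J ∧ Disjoint B J then wt t J else 0)
      = t ^ A.card * (1 - t) ^ B.card := by
  have h := Finset.prod_add (fun i => if i ∈ B then 0 else t)
    (fun i => if i ∈ A then 0 else 1 - t) (univ : Finset ι)
  rw [Finset.powerset_univ] at h
  have h1 : ∀ J : Finset ι, (∏ i ∈ J, if i ∈ B then 0 else t)
      * ∏ i ∈ univ \ J, (if i ∈ A then 0 else 1 - t)
      = if A ⊆ J ∧ Disjoint B J then wt t J else 0 := by
    intro J
    by_cases hB : Disjoint B J
    · by_cases hA : A ⊆ J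
      · simp only [hA, hB, and_self, if_true]
        unfold wt
        congr 1
        · rw [← Finset.prod_const]
          refine Finset.prod_congr rfl fun i hi => ?_
          simp [Finset.disjoint_right.1 hB hi]
        · rw [← Finset.prod_const]
          refine Finset.prod_congr rfl fun i hi => ?_
          have : i ∉ A := fun hiA => (Finset.mem_sdiff.1 hi).2 (hA hiA)
          simp [this]
      · simp only [hA, false_and, if_false]
        obtain ⟨i, hiA, hiJ⟩ := Finset.not_subset.1 hA
        rw [Finset.prod_eq_zero (i := i) (s := univ \ J) (by simp [hiJ]) (by simp [hiA]), mul_zero]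
    · simp only [hB, and_false, if_false]
      obtain ⟨i, hiB, hiJ⟩ := Finset.not_disjoint_iff.1 hB
      rw [Finset.prod_eq_zero (i := i) (s := J) hiJ (by simp [hiB]), zero_mul]
  simp only [h1] at h
  rw [← h]
  have h2 : ∀ i, ((if i ∈ B then 0 else t) + (if i ∈ A then 0 else 1 - t))
      = (if i ∈ A then t else 1) * (if i ∈ B then 1 - t else 1) := by
    intro i
    by_cases hA : i ∈ A
    · have hB : i ∉ B := Finset.disjoint_left.1 hAB hA
      simp [hA, hB]
    · by_cases hB : i ∈ B <;> simp [hA, hB]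
  simp only [h2, Finset.prod_mul_distrib, Finset.prod_ite_mem, Finset.univ_inter,
    Finset.prod_const]

lemma wt_total (t : ℝ) : ∑ J : Finset ι, wt t J = 1 := by
  have := wt_sum t (∅ : Finset ι) ∅ (by simp)
  simpa using this

/-- the bias function `p(t) = ∑_S \hat f(S) t^{|S|}` -/
noncomputable def biasFn (f : (ι → Bool) → Bool) (t : ℝ) : ℝ :=
  ∑ S, coef (toReal f) S * t ^ S.card

/-- its derivative -/
noncomputable def biasDer (f : (ι → Bool) → Bool) (t : ℝ) : ℝ :=
  ∑ S, coef (toReal f) S * (S.card * t ^ (S.card - 1))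

lemma mix_mean (f : (ι → Bool) → Bool) (t : ℝ) :
    ∑ J, wt t J * coef (toReal (fixT J f)) ∅ = biasFn f t := by
  simp only [coef_fixT, Finset.mul_sum]
  rw [Finset.sum_comm]
  unfold biasFn
  refine Finset.sum_congr rfl fun S _ => ?_
  have := wt_sum t S ∅ (by simp)
  simp only [Finset.card_empty, pow_zero, mul_one, Finset.disjoint_empty_left, and_true] at this
  rw [← this, Finset.mul_sum]
  refine Finset.sum_congr rfl fun J _ => ?_
  simp only [Finset.sdiff_eq_empty_iff_subset]
  split_ifs <;> ring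

lemma sdiff_eq_singleton_iff (S J : Finset ι) (i : ι) :
    S \ J = {i} ↔ i ∈ S ∧ (S.erase i ⊆ J ∧ Disjoint {i} J) := by
  constructor
  · intro h
    have hi : i ∈ S \ J := by rw [h]; simp
    refine ⟨(Finset.mem_sdiff.1 hi).1, ?_, by simpa using (Finset.mem_sdiff.1 hi).2⟩
    intro j hj
    by_contra hjJ
    have : j ∈ S \ J := Finset.mem_sdiff.2 ⟨Finset.mem_of_mem_erase hj, hjJ⟩
    rw [h] at this
    exact Finset.ne_of_mem_erase hj (Finset.mem_singleton.1 this)
  · rintro ⟨hi, h1, h2⟩
    ext j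
    simp only [Finset.mem_sdiff, Finset.mem_singleton]
    constructor
    · rintro ⟨hjS, hjJ⟩
      by_contra hne
      exact hjJ (h1 (Finset.mem_erase.2 ⟨hne, hjS⟩))
    · rintro rfl
      exact ⟨hi, by simpa using h2⟩

lemma mix_lin (f : (ι → Bool) → Bool) (t : ℝ) :
    ∑ J, wt t J * linSum (fixT J f) = (1 - t) * biasDer f t := by
  unfold linSum biasDer
  simp only [coef_fixT, Finset.mul_sum]
  have h1 : ∑ J : Finset ι, ∑ i : ι, ∑ S : Finset ι,
        wt t J * (if S \ J = {i} then coef (toReal f) S else 0)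
      = ∑ S : Finset ι, ∑ i : ι, ∑ J : Finset ι,
        wt t J * (if S \ J = {i} then coef (toReal f) S else 0) := by
    rw [Finset.sum_comm]
    have h0 : ∀ i : ι, ∑ J : Finset ι, ∑ S : Finset ι,
        wt t J * (if S \ J = {i} then coef (toReal f) S else 0)
        = ∑ S : Finset ι, ∑ J : Finset ι,
        wt t J * (if S \ J = {i} then coef (toReal f) S else 0) := fun i => Finset.sum_comm
    simp only [h0]
    rw [Finset.sum_comm]
  rw [h1]
  refine Finset.sum_congr rfl fun S _ => ?_
  have h2 : ∀ i : ι, ∑ J : Finset ι, wt t J * (if S \ J = {i} then coef (toReal f) S else 0)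
      = if i ∈ S then coef (toReal f) S * (t ^ (S.card - 1) * (1 - t)) else 0 := by
    intro i
    by_cases hi : i ∈ S
    · simp only [hi, if_true]
      have := wt_sum t (S.erase i) {i} (by simp)
      rw [Finset.card_erase_of_mem hi, Finset.card_singleton, pow_one] at this
      rw [← this, Finset.mul_sum]
      refine Finset.sum_congr rfl fun J _ => ?_
      simp only [sdiff_eq_singleton_iff, hi, true_and]
      split_ifs <;> ring
    · simp only [hi, if_false]
      refine Finset.sum_eq_zero fun J _ => ?_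
      simp [sdiff_eq_singleton_iff, hi]
  simp only [h2]
  rw [Finset.sum_ite_mem, Finset.univ_inter, Finset.sum_const, nsmul_eq_mul]
  ring

lemma abs_biasFn_le (f : (ι → Bool) → Bool) (t : ℝ) (h0 : 0 ≤ t) (h1 : t ≤ 1) :
    |biasFn f t| ≤ 1 := by
  rw [← mix_mean]
  calc |∑ J, wt t J * coef (toReal (fixT J f)) ∅|
      ≤ ∑ J, |wt t J * coef (toReal (fixT J f)) ∅| := Finset.abs_sum_le_sum_abs _ _
    _ ≤ ∑ J, wt t J := by
        refine Finset.sum_le_sum fun J _ => ?_
        rw [abs_mul, abs_of_nonneg (wt_nonneg t h0 h1 J)]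
        exact mul_le_of_le_one_right (wt_nonneg t h0 h1 J) (abs_coef_empty_le _)
    _ = 1 := wt_total t

/-- the differential inequality -/
lemma bias_ode (f : (ι → Bool) → Bool) (d : ℕ) (hd : degree f ≤ d) (t : ℝ)
    (h0 : 0 ≤ t) (h1 : t ≤ 1) :
    (1 - t) * biasDer f t ≤ 2 * d * (1 - biasFn f t) := by
  rw [← mix_lin, ← mix_mean]
  have e : 2 * (d : ℝ) * (1 - ∑ J, wt t J * coef (toReal (fixT J f)) ∅)
      = ∑ J, wt t J * (2 * d * (1 - coef (toReal (fixT J f)) ∅)) := by
    have := wt_total (ι := ι) t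
    simp only [mul_sub, Finset.sum_sub_distrib, mul_one, ← Finset.sum_mul, this]
    rw [Finset.mul_sum, one_mul]
    congr 1
    refine Finset.sum_congr rfl fun J _ => ?_
    ring
  rw [e]
  refine Finset.sum_le_sum fun J _ => ?_
  refine mul_le_mul_of_nonneg_left ?_ (wt_nonneg t h0 h1 J)
  have h2 := linSum_le_var (fixT J f) d ((degree_fixT J f).trans hd)
  have h3 := abs_le.1 (abs_coef_empty_le (fixT J f))
  have hd0 : (0 : ℝ) ≤ d := Nat.cast_nonneg d
  have h4 : (1 - coef (toReal (fixT J f)) ∅ ^ 2) ≤ 2 * (1 - coef (toReal (fixT J f)) ∅) := by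
    nlinarith [h3.1, h3.2]
  calc linSum (fixT J f) ≤ d * (1 - coef (toReal (fixT J f)) ∅ ^ 2) := h2
    _ ≤ d * (2 * (1 - coef (toReal (fixT J f)) ∅)) := mul_le_mul_of_nonneg_left h4 hd0
    _ = _ := by ring

lemma hasDerivAt_biasFn (f : (ι → Bool) → Bool) (t : ℝ) :
    HasDerivAt (biasFn f) (biasDer f t) t := by
  unfold biasFn biasDer
  refine HasDerivAt.fun_sum fun S _ => ?_
  exact (hasDerivAt_pow _ t).const_mul _

lemma one_sub_bias_ge_aux (f : (ι → Bool) → Bool) (d N : ℕ) (hd : degree f ≤ d)
    (hN : 2 * d ≤ N + 1) (t : ℝ) (h0 : 0 ≤ t) (h1 : t < 1) :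
    (1 - biasFn f 0) * (1 - t) ^ (N + 1) ≤ 1 - biasFn f t := by
  set k : ℝ → ℝ := fun s => (1 - biasFn f s) * ((1 - s)⁻¹) ^ (N + 1) with hk
  have hder : ∀ s : ℝ, s < 1 → HasDerivAt k
      ((0 - biasDer f s) * ((1 - s)⁻¹) ^ (N + 1)
        + (1 - biasFn f s) * (((N + 1 : ℕ) : ℝ) * ((1 - s)⁻¹) ^ (N + 1 - 1)
          * (-(0 - 1) / (1 - s) ^ 2))) s := by
    intro s hs
    have hne : (1 - s) ≠ 0 := by linarith
    have a1 : HasDerivAt (fun s => 1 - biasFn f s) (0 - biasDer f s) s :=
      (hasDerivAt_const s (1 : ℝ)).sub (hasDerivAt_biasFn f s)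
    have a2 : HasDerivAt (fun s : ℝ => 1 - s) (0 - 1) s :=
      (hasDerivAt_const s (1 : ℝ)).sub (hasDerivAt_id s)
    have a3 : HasDerivAt (fun s : ℝ => (1 - s)⁻¹) (-(0 - 1) / (1 - s) ^ 2) s := a2.fun_inv hne
    exact a1.mul (a3.fun_pow (N + 1))
  have hmono : MonotoneOn k (Set.Ico 0 1) := by
    apply monotoneOn_of_deriv_nonneg (convex_Ico 0 1)
    · intro s hs
      exact (hder s hs.2).continuousAt.continuousWithinAt
    · intro s hs
      rw [interior_Ico] at hs
      exact (hder s hs.2).differentiableAt.differentiableWithinAt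
    · intro s hs
      rw [interior_Ico] at hs
      rw [(hder s hs.2).deriv]
      have hpos : 0 < 1 - s := by linarith [hs.2]
      have hode := bias_ode f d hd s hs.1.le hs.2.le
      have hb := (abs_le.1 (abs_biasFn_le f s hs.1.le hs.2.le)).2
      have hne : (1 - s) ≠ 0 := hpos.ne'
      have e0 : -(0 - 1) / (1 - s) ^ 2 = ((1 - s)⁻¹) ^ 2 := by
        field_simp
        ring
      have hy : (1 - s)⁻¹ * (1 - s) = 1 := inv_mul_cancel₀ hne
      have e1 : ((1 - s)⁻¹) ^ (N + 1) = ((1 - s)⁻¹) ^ (N + 2) * (1 - s) := by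
        rw [pow_succ _ (N + 1), mul_assoc, hy, mul_one]
      have e : (0 - biasDer f s) * ((1 - s)⁻¹) ^ (N + 1)
        + (1 - biasFn f s) * (((N + 1 : ℕ) : ℝ) * ((1 - s)⁻¹) ^ (N + 1 - 1)
          * (-(0 - 1) / (1 - s) ^ 2))
          = ((1 - s)⁻¹) ^ (N + 2)
            * (((N : ℝ) + 1) * (1 - biasFn f s) - (1 - s) * biasDer f s) := by
        rw [e0, e1]
        simp only [Nat.add_sub_cancel]
        push_cast
        ring
      rw [e]
      apply mul_nonneg (by positivity)
      have hN' : (2 : ℝ) * d ≤ N + 1 := by exact_mod_cast hN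
      nlinarith
  have h := hmono (Set.mem_Ico.2 ⟨le_refl 0, one_pos⟩) (Set.mem_Ico.2 ⟨h0, h1⟩) h0
  simp only [hk, sub_zero, inv_one, one_pow, mul_one] at h
  have hpos : 0 < 1 - t := by linarith
  calc (1 - biasFn f 0) * (1 - t) ^ (N + 1)
      ≤ ((1 - biasFn f t) * ((1 - t)⁻¹) ^ (N + 1)) * (1 - t) ^ (N + 1) :=
        mul_le_mul_of_nonneg_right h (by positivity)
    _ = 1 - biasFn f t := by
        rw [mul_assoc, ← mul_pow, inv_mul_cancel₀ hpos.ne', one_pow, mul_one]

lemma one_sub_bias_ge (f : (ι → Bool) → Bool) (d : ℕ) (hd1 : 1 ≤ d) (hd : degree f ≤ d) (t : ℝ)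
    (h0 : 0 ≤ t) (h1 : t < 1) :
    (1 - biasFn f 0) * (1 - t) ^ (2 * d) ≤ 1 - biasFn f t := by
  obtain ⟨N, hN⟩ : ∃ N, 2 * d = N + 1 := ⟨2 * d - 1, by omega⟩
  rw [hN]
  exact one_sub_bias_ge_aux f d N hd hN.le t h0 h1

/-- the function `x ↦ -f(-x)` -/
def negf (f : (ι → Bool) → Bool) : (ι → Bool) → Bool := fun x => !(f fun i => !(x i))

lemma chi_not (S : Finset ι) (x : ι → Bool) :
    chi S (fun i => !(x i)) = (-1) ^ S.card * chi S x := by
  unfold chi
  simp only [sg_not]
  rw [← Finset.prod_const, ← Finset.prod_mul_distrib]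
  refine Finset.prod_congr rfl fun i _ => ?_
  ring

lemma sum_not (G : (ι → Bool) → ℝ) :
    ∑ x : ι → Bool, G (fun i => !(x i)) = ∑ x, G x := by
  have hinv : Function.Involutive (fun (x : ι → Bool) (i : ι) => !(x i)) := by
    intro x; ext i; simp
  exact Equiv.sum_comp (Function.Involutive.toPerm _ hinv) G

lemma coef_negf (f : (ι → Bool) → Bool) (S : Finset ι) :
    coef (toReal (negf f)) S = -((-1) ^ S.card * coef (toReal f) S) := by
  unfold coef
  rw [← sum_not (fun x => toReal f x * chi S x)]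
  rw [mul_div_assoc', ← neg_div, Finset.mul_sum, ← Finset.sum_neg_distrib]
  congr 1
  refine Finset.sum_congr rfl fun x _ => ?_
  rw [chi_not]
  have : toReal (negf f) x = - toReal f (fun i => !(x i)) := by
    unfold toReal negf; rw [sg_not]
  rw [this]
  have h2 : ((-1 : ℝ) ^ S.card) * (-1) ^ S.card = 1 := by
    rw [← mul_pow]; simp
  linear_combination (toReal f (fun i => !(x i)) * chi S x) * h2

lemma degree_negf (f : (ι → Bool) → Bool) : degree (negf f) ≤ degree f := by
  rw [degree_le_iff]
  intro S hS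
  apply card_le_degree
  intro h
  apply hS
  rw [coef_negf, h]; simp

lemma biasFn_negf (f : (ι → Bool) → Bool) (t : ℝ) : biasFn (negf f) t = - biasFn f (-t) := by
  unfold biasFn
  rw [← Finset.sum_neg_distrib]
  refine Finset.sum_congr rfl fun S _ => ?_
  rw [coef_negf, neg_pow t]
  ring

lemma biasDer_zero (f : (ι → Bool) → Bool) : biasDer f 0 = linSum f := by
  have h := mix_lin f 0
  rw [sub_zero, one_mul] at h
  rw [← h]
  rw [Finset.sum_eq_single (∅ : Finset ι)]
  · have : fixT ∅ f = f := by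
      unfold fixT; simp
    rw [this]; simp [wt]
  · intro J _ hJ
    have : J.card ≠ 0 := by simpa [Finset.card_eq_zero] using hJ
    simp [wt, this]
  · simp

open Polynomial in
/-- the odd part of the bias polynomial -/
noncomputable def oddPoly (f : (ι → Bool) → Bool) : Polynomial ℝ :=
  ∑ S : Finset ι, C (if Odd S.card then coef (toReal f) S else 0) * X ^ S.card

lemma eval_oddPoly (f : (ι → Bool) → Bool) (t : ℝ) :
    (oddPoly f).eval t = (biasFn f t - biasFn f (-t)) / 2 := by
  unfold oddPoly biasFn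
  rw [Polynomial.eval_finsetSum, ← Finset.sum_sub_distrib, Finset.sum_div]
  refine Finset.sum_congr rfl fun S _ => ?_
  simp only [Polynomial.eval_mul, Polynomial.eval_C, Polynomial.eval_pow, Polynomial.eval_X]
  by_cases h : Odd S.card
  · simp only [h, if_true, h.neg_pow]; ring
  · simp only [h, if_false, (Nat.not_odd_iff_even.1 h).neg_pow]; ring

lemma natDegree_oddPoly_le (f : (ι → Bool) → Bool) (d : ℕ) (hd : degree f ≤ d) :
    (oddPoly f).natDegree ≤ d := by
  unfold oddPoly
  refine Polynomial.natDegree_sum_le_of_forall_le _ _ fun S _ => ?_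
  by_cases h : (if Odd S.card then coef (toReal f) S else 0) = 0
  · rw [h]; simp
  · refine (Polynomial.natDegree_C_mul_X_pow_le _ _).trans ?_
    have : coef (toReal f) S ≠ 0 := by
      intro h0; apply h; simp [h0]
    exact (card_le_degree f S this).trans hd

lemma derivative_oddPoly (f : (ι → Bool) → Bool) :
    (Polynomial.derivative (oddPoly f)).eval 0 = linSum f := by
  rw [← biasDer_zero]
  unfold oddPoly biasDer
  rw [Polynomial.derivative_sum, Polynomial.eval_finsetSum]
  refine Finset.sum_congr rfl fun S _ => ?_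
  rw [Polynomial.derivative_C_mul_X_pow]
  simp only [Polynomial.eval_mul, Polynomial.eval_C, Polynomial.eval_pow, Polynomial.eval_X]
  by_cases h : Odd S.card
  · simp only [h, if_true]; ring
  · simp only [h, if_false, zero_mul]
    rcases Nat.eq_zero_or_pos S.card with h0 | h0
    · simp [h0]
    · have h2 : S.card - 1 ≠ 0 := by
        intro h1
        apply h
        have : S.card = 1 := by omega
        rw [this]; exact odd_one
      simp [h2]

lemma oddPoly_odd (f : (ι → Bool) → Bool) (t : ℝ) :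
    (oddPoly f).eval (-t) = - (oddPoly f).eval t := by
  rw [eval_oddPoly, eval_oddPoly, neg_neg]; ring

lemma abs_oddPoly_le (f : (ι → Bool) → Bool) (t : ℝ) (h0 : 0 ≤ t) (h1 : t ≤ 1) :
    |(oddPoly f).eval t| ≤ 1 := by
  rw [eval_oddPoly]
  have a := abs_le.1 (abs_biasFn_le f t h0 h1)
  have b := abs_le.1 (abs_biasFn_le (negf f) t h0 h1)
  rw [biasFn_negf] at b
  rw [abs_le]
  constructor <;> linarith [a.1, a.2, b.1, b.2]

/-- the key one-sided bound on the odd part -/
lemma oddPoly_le (f : (ι → Bool) → Bool) (d : ℕ) (hd1 : 1 ≤ d) (hd : degree f ≤ d) (t : ℝ)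
    (h0 : 0 ≤ t) (h1 : t < 1) :
    (oddPoly f).eval t ≤ 1 - (1 - t) ^ (2 * d) := by
  rw [eval_oddPoly]
  have a := one_sub_bias_ge f d hd1 hd t h0 h1
  have b := one_sub_bias_ge (negf f) d hd1 ((degree_negf f).trans hd) t h0 h1
  rw [biasFn_negf, biasFn_negf, neg_zero] at b
  linarith

end Vale.Agent.Lib.P047
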