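import Mathlib

namespace Vale.Agent.Lib.P047

open Finset Polynomial

/-- the positive Chebyshev extremal nodes of order `2r+1` -/
noncomputable def nd (r k : ℕ) : ℝ := Real.cos (k * Real.pi / (2 * r + 1))

/-- their squares -/
noncomputable def ysq (r k : ℕ) : ℝ := nd r k ^ 2

lemma nd_arg_lt (r k : ℕ) (hk : k ≤ r) : (k : ℝ) * Real.pi / (2 * r + 1) < Real.pi / 2 := by
  have hpi := Real.pi_pos
  have h : (k : ℝ) ≤ r := by exact_mod_cast hk
  rw [div_lt_div_iff₀ (by positivity) (by positivity)]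
  nlinarith

lemma nd_pos (r k : ℕ) (hk : k ≤ r) : 0 < nd r k := by
  unfold nd
  apply Real.cos_pos_of_mem_Ioo
  constructor
  · have : 0 ≤ (k : ℝ) * Real.pi / (2 * r + 1) := by have := Real.pi_pos; positivity
    linarith [Real.pi_pos]
  · exact nd_arg_lt r k hk

lemma nd_lt (r j k : ℕ) (hjk : j < k) (hk : k ≤ r) : nd r k < nd r j := by
  unfold nd
  apply Real.cos_lt_cos_of_nonneg_of_le_pi
  · have := Real.pi_pos; positivity
  · linarith [nd_arg_lt r k hk, Real.pi_pos]
  · have h : (j : ℝ) < k := by exact_mod_cast hjk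
    have := Real.pi_pos
    gcongr

lemma ysq_pos (r k : ℕ) (hk : k ≤ r) : 0 < ysq r k := pow_pos (nd_pos r k hk) 2

lemma ysq_lt (r j k : ℕ) (hjk : j < k) (hk : k ≤ r) : ysq r k < ysq r j := by
  unfold ysq
  exact pow_lt_pow_left₀ (nd_lt r j k hjk hk) (nd_pos r k hk).le (by norm_num)

lemma ysq_injOn (r : ℕ) : Set.InjOn (ysq r) (range (r + 1) : Finset ℕ) := by
  intro j hj k hk h
  simp only [coe_range, Set.mem_Iio] at hj hk
  rcases lt_trichotomy j k with hlt | heq | hgt
  · exact absurd h (ysq_lt r j k hlt (by omega)).ne'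
  · exact heq
  · exact absurd h (ysq_lt r k j hgt (by omega)).ne

lemma nd_last (r : ℕ) : nd r r = Real.sin (Real.pi / (2 * (2 * (r : ℝ) + 1))) := by
  unfold nd
  rw [← Real.cos_pi_div_two_sub]
  congr 1
  field_simp
  ring

/-- `T_{2n+1}(x) = x A_n(x^2)` -/
noncomputable def chA : ℕ → ℝ[X]
  | 0 => 1
  | 1 => 4 * X - 3
  | (n + 2) => (4 * X - 2) * chA (n + 1) - chA n

lemma chA_cos : ∀ (n : ℕ) (θ : ℝ),
    Real.cos θ * (chA n).eval (Real.cos θ ^ 2) = Real.cos ((2 * n + 1) * θ)
  | 0, θ => by simp [chA]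
  | 1, θ => by
    simp only [chA, eval_sub, eval_mul, eval_ofNat, eval_X]
    have : ((2 : ℝ) * (1 : ℕ) + 1) * θ = 3 * θ := by push_cast; ring
    rw [this, Real.cos_three_mul]; ring
  | (n + 2), θ => by
    have h1 := chA_cos (n + 1) θ
    have h0 := chA_cos n θ
    simp only [chA, eval_sub, eval_mul, eval_ofNat, eval_X]
    have e : Real.cos ((2 * ((n + 2 : ℕ) : ℝ) + 1) * θ)
        = 2 * Real.cos (2 * θ) * Real.cos ((2 * ((n + 1 : ℕ) : ℝ) + 1) * θ)
          - Real.cos ((2 * (n : ℝ) + 1) * θ) := by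
      have a1 : (2 * ((n + 2 : ℕ) : ℝ) + 1) * θ = (2 * ((n + 1 : ℕ) : ℝ) + 1) * θ + 2 * θ := by
        push_cast; ring
      have a2 : (2 * (n : ℝ) + 1) * θ = (2 * ((n + 1 : ℕ) : ℝ) + 1) * θ - 2 * θ := by
        push_cast; ring
      rw [a1, a2, Real.cos_add, Real.cos_sub]; ring
    rw [e, ← h1, ← h0, Real.cos_two_mul]; ring

lemma chA_natDegree : ∀ n : ℕ, (chA n).natDegree ≤ n
  | 0 => by simp [chA]
  | 1 => by
    simp only [chA]
    compute_degree
  | (n + 2) => by
    have h1 := chA_natDegree (n + 1)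
    have h0 := chA_natDegree n
    simp only [chA]
    refine (natDegree_sub_le _ _).trans (max_le ?_ (by omega))
    refine natDegree_mul_le.trans ?_
    have : (4 * X - 2 : ℝ[X]).natDegree ≤ 1 := by compute_degree
    omega

lemma chA_zero : ∀ n : ℕ, (chA n).eval 0 = (-1) ^ n * (2 * n + 1)
  | 0 => by simp [chA]
  | 1 => by simp [chA]; norm_num
  | (n + 2) => by
    have h1 := chA_zero (n + 1)
    have h0 := chA_zero n
    simp only [chA, eval_sub, eval_mul, eval_ofNat, eval_X, h1, h0]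
    push_cast
    ring

/-- the Lagrange weights at `0` -/
noncomputable def lam (r k : ℕ) : ℝ :=
  ∏ j ∈ (range (r + 1)).erase k, (ysq r k - ysq r j)⁻¹ * (0 - ysq r j)

lemma interp_zero (r : ℕ) (R : ℝ[X]) (hR : R.natDegree ≤ r) :
    R.eval 0 = ∑ k ∈ range (r + 1), R.eval (ysq r k) * lam r k := by
  have hdeg : R.degree < ((range (r + 1)).card : ℕ) := by
    rw [card_range]
    exact lt_of_le_of_lt degree_le_natDegree (by exact_mod_cast Nat.lt_succ_of_le hR)
  have h := Lagrange.eq_interpolate (ysq_injOn r) hdeg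
  conv_lhs => rw [h]
  rw [Lagrange.interpolate_apply, eval_finsetSum]
  refine Finset.sum_congr rfl fun k _ => ?_
  rw [eval_mul, eval_C]
  congr 1
  unfold lam Lagrange.basis Lagrange.basisDivisor
  rw [eval_prod]
  refine Finset.prod_congr rfl fun j _ => ?_
  simp

lemma lam_sign (r k : ℕ) (hk : k ≤ r) : 0 < (-1) ^ (r + k) * lam r k := by
  have h₁ : 0 < ∏ j ∈ range k, (ysq r k - ysq r j)⁻¹ * (0 - ysq r j) := by
    refine Finset.prod_pos fun j hj => ?_
    have hjk := Finset.mem_range.1 hj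
    have a := ysq_lt r j k hjk hk
    have b := ysq_pos r j (by omega)
    exact mul_pos_of_neg_of_neg (inv_lt_zero.2 (by linarith)) (by linarith)
  have h₂ : 0 < ∏ j ∈ Ioc k r, ((-1) * ((ysq r k - ysq r j)⁻¹ * (0 - ysq r j))) := by
    refine Finset.prod_pos fun j hj => ?_
    have hj' := Finset.mem_Ioc.1 hj
    have a := ysq_lt r k j hj'.1 hj'.2
    have b := ysq_pos r j hj'.2
    have c : 0 < (ysq r k - ysq r j)⁻¹ := inv_pos.2 (by linarith)
    have : (-1) * ((ysq r k - ysq r j)⁻¹ * (0 - ysq r j)) = (ysq r k - ysq r j)⁻¹ * ysq r j := by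
      ring
    rw [this]
    exact mul_pos c b
  rw [Finset.prod_mul_distrib, Finset.prod_const, Nat.card_Ioc] at h₂
  have union : (range (r + 1)).erase k = range k ∪ Ioc k r := by
    ext j
    simp only [mem_erase, mem_range, mem_union, mem_Ioc]
    omega
  have disj : Disjoint (range k) (Ioc k r) := by
    rw [Finset.disjoint_left]
    intro j hj hj'
    have := Finset.mem_range.1 hj
    have := (Finset.mem_Ioc.1 hj').1
    omega
  unfold lam
  rw [union, Finset.prod_union disj]
  have hs : ((-1 : ℝ)) ^ (r + k) = (-1) ^ (r - k) := by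
    have : r + k = (r - k) + 2 * k := by omega
    rw [this, pow_add, pow_mul]; simp
  rw [hs]
  have := mul_pos h₁ h₂
  calc 0 < _ := this
    _ = _ := by ring

lemma one_le_lam_last (r : ℕ) : 1 ≤ lam r r := by
  have e : (range (r + 1)).erase r = range r := by
    ext j
    simp only [mem_erase, mem_range]
    omega
  unfold lam
  rw [e]
  calc (1 : ℝ) = ∏ _j ∈ range r, (1 : ℝ) := by simp
    _ ≤ _ := by
      refine Finset.prod_le_prod (fun _ _ => zero_le_one) fun j hj => ?_
      have hjr := Finset.mem_range.1 hj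
      have a := ysq_lt r j r hjr le_rfl
      have b := ysq_pos r r le_rfl
      have : (ysq r r - ysq r j)⁻¹ * (0 - ysq r j) = ysq r j / (ysq r j - ysq r r) := by
        have h1 : ysq r r - ysq r j ≠ 0 := by linarith
        have h2 : ysq r j - ysq r r ≠ 0 := by linarith
        field_simp
        ring
      rw [this, le_div_iff₀ (by linarith)]
      linarith

lemma chA_node (r k : ℕ) (hk : k ≤ r) : (chA r).eval (ysq r k) = (-1) ^ k / nd r k := by
  have h := chA_cos r (k * Real.pi / (2 * r + 1))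
  have e : (2 * (r : ℝ) + 1) * (k * Real.pi / (2 * r + 1)) = k * Real.pi := by
    field_simp
  rw [e, Real.cos_nat_mul_pi] at h
  rw [eq_div_iff (nd_pos r k hk).ne', mul_comm]
  exact h

lemma sign_sq (n : ℕ) : ((-1 : ℝ)) ^ n * (-1) ^ n = 1 := by
  rw [← mul_pow]; simp

/-- total weight -/
lemma weight_total (r : ℕ) :
    ∑ k ∈ range (r + 1), (-1) ^ (r + k) * lam r k / nd r k = 2 * r + 1 := by
  have h := interp_zero r (chA r) (chA_natDegree r)
  rw [chA_zero] at h
  have h2 : (2 * (r : ℝ) + 1) = (-1) ^ r * ((-1) ^ r * (2 * r + 1)) := by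
    rw [← mul_assoc, sign_sq, one_mul]
  rw [h2, h, Finset.mul_sum]
  refine Finset.sum_congr rfl fun k hk => ?_
  rw [chA_node r k (by have := Finset.mem_range.1 hk; omega), pow_add]
  ring

theorem interp_bound (r : ℕ) (R : ℝ[X]) (hR : R.natDegree ≤ r)
    (hb : ∀ k ≤ r, |nd r k * R.eval (ysq r k)| ≤ 1) (η : ℝ) (h0 : 0 ≤ η)
    (hη : nd r r * R.eval (ysq r r) ≤ 1 - η) :
    R.eval 0 ≤ (2 * r + 1) - η / nd r r := by
  rw [interp_zero r R hR]
  have hterm : ∀ k ∈ range (r + 1), R.eval (ysq r k) * lam r k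
      ≤ (-1) ^ (r + k) * lam r k / nd r k * (1 - if k = r then η else 0) := by
    intro k hk
    have hk' : k ≤ r := by have := Finset.mem_range.1 hk; omega
    have hx := nd_pos r k hk'
    have hw : 0 ≤ (-1) ^ (r + k) * lam r k / nd r k := (div_pos (lam_sign r k hk') hx).le
    have e : R.eval (ysq r k) * lam r k
        = (-1) ^ (r + k) * lam r k / nd r k * ((-1) ^ (r + k) * (nd r k * R.eval (ysq r k))) := by
      have := sign_sq (r + k)
      field_simp
      linear_combination (-(R.eval (ysq r k) * lam r k)) * this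
    rw [e]
    refine mul_le_mul_of_nonneg_left ?_ hw
    by_cases hkr : k = r
    · subst hkr
      simp only [if_true]
      have : ((-1 : ℝ)) ^ (k + k) = 1 := by rw [pow_add, sign_sq]
      rw [this, one_mul]; exact hη
    · simp only [hkr, if_false, sub_zero]
      apply le_of_abs_le
      rw [abs_mul, abs_pow, abs_neg, abs_one, one_pow, one_mul]
      exact hb k hk'
  refine (Finset.sum_le_sum hterm).trans ?_
  simp only [mul_sub, mul_one, Finset.sum_sub_distrib, weight_total]
  have e2 : ∑ k ∈ range (r + 1), (-1) ^ (r + k) * lam r k / nd r k * (if k = r then η else 0)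
      = lam r r / nd r r * η := by
    rw [Finset.sum_eq_single r]
    · have : ((-1 : ℝ)) ^ (r + r) = 1 := by rw [pow_add, sign_sq]
      simp [this]
    · intro k _ hk; simp [hk]
    · intro h; exact absurd (Finset.mem_range.2 (Nat.lt_succ_self r)) h
  rw [e2]
  have hx := nd_pos r r le_rfl
  have : η / nd r r ≤ lam r r / nd r r * η := by
    rw [div_mul_eq_mul_div, div_le_div_iff_of_pos_right hx]
    nlinarith [one_le_lam_last r]
  linarith

lemma nd_last_le (r : ℕ) : nd r r ≤ Real.pi / (2 * (2 * (r : ℝ) + 1)) := by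
  rw [nd_last]
  exact Real.sin_le (by have := Real.pi_pos; positivity)

lemma nd_last_le_half (r : ℕ) (hr : 1 ≤ r) : nd r r ≤ 1 / 2 := by
  rw [nd_last, ← Real.sin_pi_div_six]
  have hpi := Real.pi_pos
  have h : (1 : ℝ) ≤ r := by exact_mod_cast hr
  apply Real.sin_le_sin_of_le_of_le_pi_div_two
  · have : 0 ≤ Real.pi / (2 * (2 * (r : ℝ) + 1)) := by positivity
    linarith
  · linarith
  · apply div_le_div_of_nonneg_left hpi.le (by norm_num) (by linarith)

lemma exp_le_one_sub (x : ℝ) (h0 : 0 ≤ x) (h1 : x ≤ 1 / 2) :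
    Real.exp (-(2 * Real.log 2) * x) ≤ 1 - x := by
  have h := convexOn_exp.2 (Set.mem_univ (0 : ℝ)) (Set.mem_univ (-Real.log 2))
    (show (0 : ℝ) ≤ 1 - 2 * x by linarith) (show (0 : ℝ) ≤ 2 * x by linarith) (by ring)
  simp only [smul_eq_mul, mul_zero, zero_add, Real.exp_zero, mul_one, Real.exp_neg,
    Real.exp_log (show (0 : ℝ) < 2 by norm_num)] at h
  have e : -(2 * Real.log 2) * x = 2 * x * -Real.log 2 := by ring
  rw [e]
  calc Real.exp (2 * x * -Real.log 2) ≤ 1 - 2 * x + 2 * x * 2⁻¹ := by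
        simpa [Real.exp_neg] using h
    _ = 1 - x := by ring

lemma exp_const_ge : (1 : ℝ) / 80 ≤ Real.exp (-(2 * Real.pi * Real.log 2)) := by
  have hl2 : 0 < Real.log 2 := Real.log_pos (by norm_num)
  have h1 : 2 * Real.pi * Real.log 2 ≤ Real.log 80 := by
    have hpi := Real.pi_lt_d2
    have h2 : (63 : ℝ) * Real.log 2 ≤ 10 * Real.log 80 := by
      have a : (63 : ℝ) * Real.log 2 = Real.log (2 ^ 63) := by
        rw [Real.log_pow]; norm_num
      have b : (10 : ℝ) * Real.log 80 = Real.log (80 ^ 10) := by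
        rw [Real.log_pow]; norm_num
      rw [a, b]
      exact Real.log_le_log (by positivity) (by norm_num)
    nlinarith
  calc (1 : ℝ) / 80 = Real.exp (-Real.log 80) := by
        rw [Real.exp_neg, Real.exp_log (by norm_num)]; norm_num
    _ ≤ _ := Real.exp_le_exp.2 (by linarith)

/-- the gain for odd degree -/
lemma gain_odd (r : ℕ) (hr : 1 ≤ r) :
    (2 * (r : ℝ) + 1) / 128 ≤ (1 - nd r r) ^ (2 * (2 * r + 1)) / nd r r := by
  have hx := nd_pos r r le_rfl
  have hx1 := nd_last_le r
  have hx2 := nd_last_le_half r hr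
  have hpi := Real.pi_pos
  have hl2 : 0 < Real.log 2 := Real.log_pos (by norm_num)
  have hm : (0 : ℝ) < 2 * r + 1 := by positivity
  have h1 : (1 : ℝ) / 80 ≤ (1 - nd r r) ^ (2 * (2 * r + 1)) := by
    calc (1 : ℝ) / 80 ≤ Real.exp (-(2 * Real.pi * Real.log 2)) := exp_const_ge
      _ ≤ Real.exp ((2 * (2 * r + 1) : ℕ) * (-(2 * Real.log 2) * nd r r)) := by
          apply Real.exp_le_exp.2
          push_cast
          have h3 : nd r r * (2 * (2 * (r : ℝ) + 1)) ≤ Real.pi := by
            rw [le_div_iff₀ (by positivity)] at hx1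
            exact hx1
          nlinarith
      _ = Real.exp (-(2 * Real.log 2) * nd r r) ^ (2 * (2 * r + 1)) := by
          rw [Real.exp_nat_mul]
      _ ≤ _ := pow_le_pow_left₀ (Real.exp_pos _).le (exp_le_one_sub _ hx.le hx2) _
  rw [le_div_iff₀ hx]
  have h4 : (2 * (r : ℝ) + 1) / 128 * nd r r ≤ 1 / 80 := by
    have h5 : (2 * (r : ℝ) + 1) * nd r r ≤ Real.pi / 2 := by
      rw [le_div_iff₀ (by positivity)] at hx1
      linarith
    have := Real.pi_lt_d2
    linarith
  linarith

end Vale.Agent.Lib.P047
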