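import Mathlib
import Vale.Agent.Lib.P047.Bias
import Vale.Agent.Lib.P047.Interp

namespace Vale.Agent.Lib.P047

open Finset Polynomial

set_option linter.unusedSectionVars false

variable {ι : Type} [Fintype ι] [DecidableEq ι]

/-- `R` with `oddPoly f (t) = t R(t^2)` -/
noncomputable def halfPoly (f : (ι → Bool) → Bool) : ℝ[X] :=
  ∑ S : Finset ι, C (if Odd S.card then coef (toReal f) S else 0) * X ^ ((S.card - 1) / 2)

lemma eval_halfPoly (f : (ι → Bool) → Bool) (t : ℝ) :
    t * (halfPoly f).eval (t ^ 2) = (oddPoly f).eval t := by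
  unfold halfPoly oddPoly
  rw [eval_finsetSum, eval_finsetSum, Finset.mul_sum]
  refine Finset.sum_congr rfl fun S _ => ?_
  simp only [eval_mul, eval_C, eval_pow, eval_X]
  by_cases h : Odd S.card
  · obtain ⟨k, hk⟩ := h
    have : (S.card - 1) / 2 = k := by omega
    rw [this, hk, ← pow_mul, pow_succ]
    ring
  · simp [h]

lemma natDegree_halfPoly_le (f : (ι → Bool) → Bool) (r : ℕ) (hd : degree f ≤ 2 * r + 2) :
    (halfPoly f).natDegree ≤ r := by
  unfold halfPoly
  refine natDegree_sum_le_of_forall_le _ _ fun S _ => ?_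
  by_cases h : (if Odd S.card then coef (toReal f) S else 0) = 0
  · rw [h]; simp
  · refine (natDegree_C_mul_X_pow_le _ _).trans ?_
    have h1 : coef (toReal f) S ≠ 0 := by
      intro h0; apply h; simp [h0]
    have := (card_le_degree f S h1).trans hd
    omega

lemma halfPoly_zero (f : (ι → Bool) → Bool) : (halfPoly f).eval 0 = linSum f := by
  rw [← biasDer_zero]
  unfold halfPoly biasDer
  rw [eval_finsetSum]
  refine Finset.sum_congr rfl fun S _ => ?_
  simp only [eval_mul, eval_C, eval_pow, eval_X]
  by_cases h : Odd S.card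
  · obtain ⟨k, hk⟩ := h
    have h1 : (S.card - 1) / 2 = k := by omega
    have h2 : S.card - 1 = 2 * k := by omega
    have h3 : Odd S.card := ⟨k, hk⟩
    simp only [h3, if_true, h2]
    rcases Nat.eq_zero_or_pos k with h0 | h0
    · subst h0; simp [hk]
    · have a : k ≠ 0 := by omega
      have b : 2 * k ≠ 0 := by omega
      simp [a]
  · simp only [h, if_false, zero_mul]
    rcases Nat.eq_zero_or_pos S.card with h0 | h0
    · simp [h0]
    · have h2 : S.card - 1 ≠ 0 := by
        intro h1
        apply h
        have : S.card = 1 := by omega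
        rw [this]; exact odd_one
      simp [h2]

/-- the explicit bound -/
theorem linSum_le_explicit (f : (ι → Bool) → Bool) (d r : ℕ) (hr : 1 ≤ r) (hd : degree f ≤ d)
    (h2 : d ≤ 2 * r + 2) :
    linSum f ≤ (2 * r + 1) - (1 - nd r r) ^ (2 * d) / nd r r := by
  rw [← halfPoly_zero]
  have hx := nd_pos r r le_rfl
  have hx2 := nd_last_le_half r hr
  rcases Nat.eq_zero_or_pos d with hd0 | hd0
  · -- degree zero: the sum vanishes
    subst hd0
    refine interp_bound r (halfPoly f) (natDegree_halfPoly_le f r (hd.trans h2)) ?_ _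
      (pow_nonneg (by linarith) _) ?_
    · intro k hk
      unfold ysq
      rw [eval_halfPoly]
      exact abs_oddPoly_le f _ (nd_pos r k hk).le (Real.cos_le_one _)
    · unfold ysq
      rw [eval_halfPoly, eval_oddPoly]
      have hc : ∀ t : ℝ, biasFn f t = coef (toReal f) ∅ := by
        intro t
        unfold biasFn
        rw [Finset.sum_eq_single (∅ : Finset ι)]
        · simp
        · intro S _ hS
          have : coef (toReal f) S = 0 := by
            by_contra hne
            have := (card_le_degree f S hne).trans hd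
            exact hS (Finset.card_eq_zero.1 (by omega))
          rw [this, zero_mul]
        · simp
      rw [hc, hc]; simp
  · refine interp_bound r (halfPoly f) (natDegree_halfPoly_le f r (hd.trans h2)) ?_ _
      (pow_nonneg (by linarith) _) ?_
    · intro k hk
      unfold ysq
      rw [eval_halfPoly]
      exact abs_oddPoly_le f _ (nd_pos r k hk).le (Real.cos_le_one _)
    · unfold ysq
      rw [eval_halfPoly]
      exact oddPoly_le f d hd0 hd _ hx.le (by linarith)

/-- degree at most two -/
lemma linSum_le_one (f : (ι → Bool) → Bool) (hd : degree f ≤ 2) : linSum f ≤ 1 := by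
  rw [← halfPoly_zero]
  have hdeg := natDegree_halfPoly_le f 0 (by simpa using hd)
  have h1 := abs_oddPoly_le f 1 zero_le_one le_rfl
  rw [← eval_halfPoly] at h1
  have hc : halfPoly f = C ((halfPoly f).coeff 0) :=
    eq_C_of_natDegree_le_zero hdeg
  rw [hc] at h1 ⊢
  simp only [eval_C, one_mul] at h1 ⊢
  exact (abs_le.1 h1).2

/-- the uniform bound -/
theorem linSum_le_uniform (f : (ι → Bool) → Bool) (d : ℕ) (hd2 : 2 ≤ d) (hd : degree f ≤ d) :
    linSum f ≤ (1 - 1 / 128) * d := by
  rcases Nat.lt_or_ge d 3 with h3 | h3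
  · have : d = 2 := by omega
    subst this
    have := linSum_le_one f hd
    norm_num
    linarith
  · obtain ⟨r, hr⟩ : ∃ r, d = 2 * r + 1 ∨ d = 2 * r + 2 := ⟨(d - 1) / 2, by omega⟩
    have hr1 : 1 ≤ r := by omega
    have hx := nd_pos r r le_rfl
    have hx1 := nd_last_le r
    have hx2 := nd_last_le_half r hr1
    have hg := gain_odd r hr1
    rcases hr with hr | hr
    · have h := linSum_le_explicit f d r hr1 hd (by omega)
      rw [hr] at h ⊢
      push_cast
      linarith
    · have h := linSum_le_explicit f d r hr1 hd (by omega)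
      rw [hr] at h ⊢
      have e : (1 - nd r r) ^ (2 * (2 * r + 2)) / nd r r
          = (1 - nd r r) ^ (2 * (2 * r + 1)) / nd r r * (1 - nd r r) ^ 2 := by
        have : 2 * (2 * r + 2) = 2 * (2 * r + 1) + 2 := by ring
        rw [this, pow_add]; ring
      rw [e] at h
      have hq : 1 - 2 * nd r r ≤ (1 - nd r r) ^ 2 := by nlinarith [sq_nonneg (nd r r)]
      have hq0 : 0 ≤ 1 - 2 * nd r r := by linarith
      have hG : 0 ≤ (1 - nd r r) ^ (2 * (2 * r + 1)) / nd r r := by
        apply div_nonneg (pow_nonneg (by linarith) _) hx.le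
      have h5 : (2 * (r : ℝ) + 1) / 128 * (1 - 2 * nd r r)
          ≤ (1 - nd r r) ^ (2 * (2 * r + 1)) / nd r r * (1 - nd r r) ^ 2 :=
        mul_le_mul hg hq hq0 hG
      have h6 : (2 * (r : ℝ) + 1) * nd r r ≤ Real.pi / 2 := by
        rw [le_div_iff₀ (by positivity)] at hx1
        linarith
      have := Real.pi_lt_d2
      push_cast
      nlinarith

end Vale.Agent.Lib.P047
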