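import Mathlib
import Vale.Agent.Lib.P047.Oddize

namespace Vale.Agent.Lib.P047.TensorThm

open Finset Vale.Agent.Lib.P047

lemma compose (n m : ℕ) (f : (Fin n → Bool) → Bool) (g : (Fin m → Bool) → Bool)
    (hg : coef (toReal g) ∅ = 0) :
    ∃ h : (Fin (n * m) → Bool) → Bool,
      linSum h = linSum f * linSum g ∧ degree h ≤ degree f * degree g ∧
      coef (toReal h) ∅ = coef (toReal f) ∅ := by
  refine ⟨relabel (comp f g) finProdFinEquiv, ?_, ?_, ?_⟩
  · rw [linSum_relabel, linSum_comp f g hg]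
  · exact (degree_relabel _ _).trans (degree_comp f g hg)
  · rw [coef_relabel, Finset.map_empty, coef_comp_empty f g hg]

lemma iterate (n : ℕ) (f : (Fin n → Bool) → Bool) (hf : coef (toReal f) ∅ = 0) (k : ℕ) :
    ∃ (N : ℕ) (F : (Fin N → Bool) → Bool), coef (toReal F) ∅ = 0 ∧
      linSum F = linSum f ^ (k + 1) ∧ degree F ≤ degree f ^ (k + 1) := by
  induction k with
  | zero => exact ⟨n, f, hf, by simp, by simp⟩
  | succ k ih =>
    obtain ⟨N, F, h0, h1, h2⟩ := ih
    obtain ⟨h, e1, e2, e3⟩ := compose n N f F h0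
    refine ⟨n * N, h, by rw [e3, hf], ?_, ?_⟩
    · rw [e1, h1]; ring
    · calc degree h ≤ degree f * degree F := e2
        _ ≤ degree f * degree f ^ (k + 1) := Nat.mul_le_mul_left _ h2
        _ = degree f ^ (k + 1 + 1) := by ring

lemma balanced_case (C : ℝ)
    (hC : ∀ (n : ℕ) (f : (Fin n → Bool) → Bool), linSum f ≤ C * Real.sqrt (degree f))
    (n : ℕ) (f : (Fin n → Bool) → Bool) (hf : coef (toReal f) ∅ = 0) :
    linSum f ≤ Real.sqrt (degree f) := by
  by_contra hcon
  push Not at hcon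
  rcases Nat.eq_zero_or_pos (degree f) with hd | hd
  · have := hC n f
    rw [hd] at this hcon
    simp at this hcon
    linarith
  · have hd' : (0 : ℝ) < Real.sqrt (degree f) := Real.sqrt_pos.2 (by exact_mod_cast hd)
    set r := linSum f / Real.sqrt (degree f) with hr
    have hr1 : 1 < r := by rw [hr, one_lt_div hd']; exact hcon
    obtain ⟨k, hk⟩ := pow_unbounded_of_one_lt C hr1
    have hk' : C < r ^ (k + 1) := lt_of_lt_of_le hk (pow_le_pow_right₀ hr1.le (Nat.le_succ k))
    obtain ⟨N, F, _, h1, h2⟩ := iterate n f hf k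
    have h3 := hC N F
    have hCpos : 0 ≤ C := by
      have := hC n f
      by_contra hneg
      push Not at hneg
      have h5 : C * Real.sqrt (degree f) < 0 := mul_neg_of_neg_of_pos hneg hd'
      linarith [hd'.trans hcon]
    have h4 : Real.sqrt (degree F) ≤ Real.sqrt (degree f) ^ (k + 1) := by
      rw [Real.sqrt_le_iff]
      refine ⟨by positivity, ?_⟩
      rw [← pow_mul, mul_comm, pow_mul, Real.sq_sqrt (by positivity)]
      exact_mod_cast h2
    have h5 : linSum f ^ (k + 1) ≤ C * Real.sqrt (degree f) ^ (k + 1) := by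
      rw [← h1]; exact h3.trans (mul_le_mul_of_nonneg_left h4 hCpos)
    have h6 : r ^ (k + 1) ≤ C := by
      rw [hr, div_pow, div_le_iff₀ (by positivity)]; exact h5
    linarith

theorem tensor_result :
    (∀ (n m : ℕ) (f : (Fin n → Bool) → Bool) (g : (Fin m → Bool) → Bool),
        coef (toReal g) ∅ = 0 →
        ∃ h : (Fin (n * m) → Bool) → Bool,
          linSum h = linSum f * linSum g ∧ degree h ≤ degree f * degree g ∧
          coef (toReal h) ∅ = coef (toReal f) ∅) ∧
    ((∃ C : ℝ, ∀ (n : ℕ) (f : (Fin n → Bool) → Bool), linSum f ≤ C * Real.sqrt (degree f)) →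
      (∀ (n : ℕ) (f : (Fin n → Bool) → Bool), coef (toReal f) ∅ = 0 →
          linSum f ≤ Real.sqrt (degree f)) ∧
      (∀ (n : ℕ) (f : (Fin n → Bool) → Bool),
          linSum f + |coef (toReal f) ∅| ≤ Real.sqrt ((degree f : ℝ) + 1))) := by
  refine ⟨compose, ?_⟩
  rintro ⟨C, hC⟩
  refine ⟨balanced_case C hC, ?_⟩
  intro n f
  obtain ⟨c, hc⟩ : ∃ c : Bool, sg c * coef (toReal f) ∅ = |coef (toReal f) ∅| := by
    rcases le_total 0 (coef (toReal f) ∅) with h | h
    · exact ⟨true, by simp [sg, abs_of_nonneg h]⟩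
    · exact ⟨false, by simp [sg, abs_of_nonpos h]⟩
  set F : (Fin (n + 1) → Bool) → Bool := relabel (oddize c f) (finSuccEquiv n).symm with hF
  have h0 : coef (toReal F) ∅ = 0 := by
    rw [hF, coef_relabel, Finset.map_empty, coef_oddize_empty]
  have h1 : linSum F = linSum f + |coef (toReal f) ∅| := by
    rw [hF, linSum_relabel, linSum_oddize, hc]
  have h2 : degree F ≤ degree f + 1 := (degree_relabel _ _).trans (degree_oddize c f)
  rw [← h1]
  refine (balanced_case C hC (n + 1) F h0).trans ?_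
  apply Real.sqrt_le_sqrt
  exact_mod_cast h2

end Vale.Agent.Lib.P047.TensorThm
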